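import Vale.Agent.P247.H743.JDa

/-!
# P290Z, GRAPH0: complex functions in the Wiener algebra
-/

open scoped ContDiff Topology ComplexConjugate
open Set Filter Metric Complex

noncomputable section

namespace Vale.Agent.P290Z.Kur.G0

open Vale.Agent.P247.H74 Vale.Agent.P247.H720 Vale.Agent.P247.H743

/-- pairs of real functions -/
abbrev HC (m : ℕ) : Type := WR m × WR m

/-- the value of a complex function -/
def EC (m : ℕ) (p : P2) : HC m →L[ℝ] ℂ :=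
  equivRealProdCLM.symm.toContinuousLinearMap.comp ((evL m p).prodMap (evL m p))

/-- multiplication by `i` -/
def JC (m : ℕ) : HC m →L[ℝ] HC m :=
  (-ContinuousLinearMap.snd ℝ _ _).prod (ContinuousLinearMap.fst ℝ _ _)

variable {m : ℕ}

theorem EC_re (p : P2) (h : HC m) : (EC m p h).re = ev h.1 p := rfl

theorem EC_im (p : P2) (h : HC m) : (EC m p h).im = ev h.2 p := rfl

theorem EC_ext {h h' : HC m} (e : ∀ p, EC m p h = EC m p h') : h = h' :=
  Prod.ext (H2 m _ _ (funext fun p => congrArg re (e p))) (H2 m _ _ (funext fun p => congrArg im (e p)))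

theorem EC_J (p : P2) (h : HC m) : EC m p (JC m h) = I * EC m p h := by
  refine Complex.ext ?_ ?_
  · rw [I_mul_re]
    exact map_neg (evL m p) h.2
  · rw [I_mul_im]
    rfl

theorem norm_EC (p : P2) (h : HC m) : ‖EC m p h‖ ≤ 2 * ‖h‖ := by
  have h1 := (abs_ev_le h.1 p).trans (norm_fst_le h)
  have h2 := (abs_ev_le h.2 p).trans (norm_snd_le h)
  have h3 := norm_le_abs_re_add_abs_im (EC m p h)
  rw [EC_re, EC_im] at h3
  linarith

theorem d_EC (a : HC (m + 1)) (p : P2) : ∃ D : P2 →L[ℝ] ℂ,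
    HasFDerivAt (fun p => EC (m + 1) p a) D p ∧ D (1, 0) = EC m p ((SW m).prodMap (SW m) a) ∧
      D (0, 1) = EC m p ((TW' m).prodMap (TW' m) a) :=
  ⟨_, equivRealProdCLM.symm.hasFDerivAt.comp p
    ((differentiableAt_ev a.1 p).hasFDerivAt.prodMk (differentiableAt_ev a.2 p).hasFDerivAt),
    Complex.ext (ds_ev a.1 p) (ds_ev a.2 p), Complex.ext (dt_ev a.1 p) (dt_ev a.2 p)⟩

/-! ### smooth families of functions -/

section Sm

variable {E Q Q' : Type} [NormedAddCommGroup E] [NormedSpace ℝ E] [NormedAddCommGroup Q]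
  [NormedSpace ℝ Q] [NormedAddCommGroup Q'] [NormedSpace ℝ Q']

/-- the coordinates of `g x` are in the algebra and depend smoothly on `x` -/
def Sm (g : E → P2 → Q) : Prop :=
  ∀ l : Q →L[ℝ] ℝ, ∃ a : E → WR 2, ContDiff ℝ ∞ a ∧ ∀ x p, ev (a x) p = l (g x p)

theorem Sm.comp [FiniteDimensional ℝ Q] {g : E → P2 → Q} (hg : Sm g) {F : Q → Q'}
    (hF : ContDiff ℝ ∞ F) : Sm fun x p => F (g x p) := by
  intro l
  let u := (Module.finBasis ℝ Q).equivFunL
  choose a ha hb using fun i => hg ((ContinuousLinearMap.proj i).comp u.toContinuousLinearMap)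
  have h1 : ContDiff ℝ ∞ fun y => l (F (u.symm y)) := l.contDiff.comp (hF.comp u.symm.contDiff)
  have h2 : PerL 0 fun y => l (F (u.symm y)) := fun a b x => by simp
  refine ⟨fun x => nem 0 (0 + 2) (fun y => l (F (u.symm y))) fun i => a i x,
    (contDiff_nem 0 0 h1 h2).comp (contDiff_pi.2 ha), fun x p => ?_⟩
  rw [nem_spec 0 0 h1 h2]
  simp only [sup, P247.H720.arg, hb, zero_apply, zero_add]
  exact congrArg (fun y => l (F y)) (u.symm_apply_apply _)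

theorem Sm.prod {g : E → P2 → Q} {g' : E → P2 → Q'} (hg : Sm g) (hg' : Sm g') :
    Sm fun x p => (g x p, g' x p) := by
  intro l
  obtain ⟨a, a1, a2⟩ := hg (l.comp (ContinuousLinearMap.inl ℝ Q Q'))
  obtain ⟨b, b1, b2⟩ := hg' (l.comp (ContinuousLinearMap.inr ℝ Q Q'))
  refine ⟨fun x => a x + b x, a1.add b1, fun x p => ?_⟩
  rw [ev_add, a2, b2]
  simp [← map_add]

theorem sm_const {c : E → Q} (hc : ContDiff ℝ ∞ c) : Sm fun x _ => c x := fun l =>
  ⟨fun x => cstL 2 (l (c x)), (cstL 2).contDiff.comp (l.contDiff.comp hc), fun _ p => ev_cst 2 _ p⟩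

theorem sm_ev {a : E → WR 2} (ha : ContDiff ℝ ∞ a) : Sm fun x p => ev (a x) p := fun l =>
  ⟨fun x => l 1 • a x, ha.const_smul _, fun x p => by
    rw [ev_smul, mul_comm, ← smul_eq_mul, ← map_smul, smul_eq_mul, mul_one]⟩

theorem sm_EC {a : E → HC 2} (ha : ContDiff ℝ ∞ a) : Sm fun x p => EC 2 p (a x) :=
  ((sm_ev ha.fst).prod (sm_ev ha.snd)).comp equivRealProdCLM.symm.contDiff

theorem Sm.ex {g : E → P2 → ℂ} (hg : Sm g) :
    ∃ a : E → HC 2, ContDiff ℝ ∞ a ∧ ∀ x p, EC 2 p (a x) = g x p := by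
  obtain ⟨a, a1, a2⟩ := hg reCLM
  obtain ⟨b, b1, b2⟩ := hg imCLM
  exact ⟨fun x => (a x, b x), a1.prodMk b1, fun x p => Complex.ext (a2 x p) (b2 x p)⟩

end Sm

/-! ### the linear operators -/

/-- the inverse of `∂ₛ + i ∂ₜ` -/
def GC : HC 2 →L[ℝ] HC 3 :=
  ((G1 2).comp (ContinuousLinearMap.fst ℝ _ _) + (G2 2).comp (ContinuousLinearMap.snd ℝ _ _)).prod
    ((G1 2).comp (ContinuousLinearMap.snd ℝ _ _) - (G2 2).comp (ContinuousLinearMap.fst ℝ _ _))

theorem GC_apply (h : HC 2) : GC h = (G1 2 h.1 + G2 2 h.2, G1 2 h.2 - G2 2 h.1) := rfl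

def AC (b : WR 3 →L[ℝ] WR 2) : HC 2 →L[ℝ] HC 2 := (b.prodMap b).comp GC

/-- the mean -/
def mu : HC 2 →L[ℝ] ℂ := (EC 2 0).comp ((P0 2).prodMap (P0 2))

/-- translation -/
def TC (τ : P2) : HC 2 →L[ℝ] HC 2 := (trW 2 τ).prodMap (trW 2 τ)

def LC (b : WR 3 →L[ℝ] WR 2) (w : ℂ) (p : P2) : HC 2 →L[ℝ] ℂ := (EC 2 p).comp (AC b) + w • mu

theorem LC_apply (b : WR 3 →L[ℝ] WR 2) (w : ℂ) (p : P2) (h : HC 2) :
    LC b w p h = EC 2 p (AC b h) + w * mu h := rfl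

theorem AC_J (b : WR 3 →L[ℝ] WR 2) (h : HC 2) : AC b (JC 2 h) = JC 2 (AC b h) := by
  refine Prod.ext ?_ ?_
  · change b (G1 2 (-h.2) + G2 2 h.1) = -b (G1 2 h.2 - G2 2 h.1)
    rw [← map_neg, map_neg, neg_sub, neg_add_eq_sub]
  · change b (G1 2 h.1 - G2 2 (-h.2)) = b (G1 2 h.1 + G2 2 h.2)
    rw [map_neg, sub_neg_eq_add]

theorem LC_J (b : WR 3 →L[ℝ] WR 2) (w : ℂ) (p : P2) (h : HC 2) :
    LC b w p (JC 2 h) = I * LC b w p h := by
  have : mu (JC 2 h) = I * mu h := by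
    rw [mu, ContinuousLinearMap.comp_apply, ContinuousLinearMap.comp_apply, ← EC_J]
    exact congrArg (EC 2 0) (Prod.ext (map_neg (P0 2) h.2) rfl)
  rw [LC_apply, LC_apply, AC_J, EC_J, this]
  ring

theorem EC_T (τ p : P2) (h : HC 2) : EC 2 p (TC τ h) = EC 2 (p + τ) h :=
  Complex.ext (ev_trW τ h.1 p) (ev_trW τ h.2 p)

theorem norm_TC (τ : P2) (h : HC 2) : ‖TC τ h‖ ≤ ‖h‖ :=
  max_le_max (norm_trW τ h.1) (norm_trW τ h.2)

theorem LC_T {b : WR 3 →L[ℝ] WR 2} (hb : ∀ τ a, b (trW 3 τ a) = trW 2 τ (b a)) (w : ℂ) (τ p : P2)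
    (h : HC 2) : LC b w p (TC τ h) = LC b w (p + τ) h := by
  have h1 : mu (TC τ h) = mu h := Complex.ext (mL_trW τ h.1) (mL_trW τ h.2)
  have h2 : AC b (TC τ h) = TC τ (AC b h) := by
    refine Prod.ext ?_ ?_
    · change b (G1 2 (trW 2 τ h.1) + G2 2 (trW 2 τ h.2)) = trW 2 τ (b (G1 2 h.1 + G2 2 h.2))
      rw [G1_trW, G2_trW, ← map_add, hb]
    · change b (G1 2 (trW 2 τ h.2) - G2 2 (trW 2 τ h.1)) = trW 2 τ (b (G1 2 h.2 - G2 2 h.1))
      rw [G1_trW, G2_trW, ← map_sub, hb]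
  rw [LC_apply, LC_apply, h1, h2, EC_T]

theorem norm_LC (b : WR 3 →L[ℝ] WR 2) {w : ℂ} (hw : ‖w‖ ≤ 1) (p : P2) (h : HC 2) :
    ‖LC b w p h‖ ≤ 2 * ‖AC b h‖ + ‖mu h‖ := by
  refine (norm_add_le _ _).trans (add_le_add (norm_EC p _) ?_)
  change ‖w * mu h‖ ≤ _
  rw [norm_mul]
  exact mul_le_of_le_one_left (norm_nonneg _) hw

theorem SW_trW (τ : P2) (a : WR (m + 1)) : SW m (trW (m + 1) τ a) = trW m τ (SW m a) :=
  mulW_trW (A := SW m) (fun n => 2 * Real.pi * I * n.1) (fun a n => by rw [cf_SW]; rfl) τ a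

theorem LC_div (p : P2) (h : HC 2) :
    LC (SW 2) (1 / 2) p h + I * LC (TW' 2) (-I / 2) p h = EC 2 p h := by
  have h1 : AC (SW 2) h + JC 2 (AC (TW' 2) h) = h - (P0 2).prodMap (P0 2) h := by
    refine Prod.ext ?_ ?_
    · change SW 2 (G1 2 h.1 + G2 2 h.2) + -TW' 2 (G1 2 h.2 - G2 2 h.1) = h.1 - P0 2 h.1
      rw [← identity_div, map_add, map_sub, identity_curl]
      abel
    · change SW 2 (G1 2 h.2 - G2 2 h.1) + TW' 2 (G1 2 h.1 + G2 2 h.2) = h.2 - P0 2 h.2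
      rw [← identity_div, map_add, map_sub, identity_curl]
      abel
  have h2 : EC 2 p ((P0 2).prodMap (P0 2) h) = mu h := Complex.ext (ev_P0 h.1 p) (ev_P0 h.2 p)
  have h3 := congrArg (EC 2 p) h1
  rw [map_add, map_sub, EC_J, h2] at h3
  rw [LC_apply, LC_apply]
  linear_combination h3 - mu h / 2 * I_mul_I

/-- the inclusion -/
abbrev ic : WR 3 →L[ℝ] WR 2 := incl 3 2 (Nat.le_succ 2)

/-- the derivative of the solution in the variable `z` -/
theorem d_LC (h : HC 2) (z : ℂ) : ∃ D : ℂ →L[ℝ] ℂ,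
    HasFDerivAt (fun z => LC ic (conj z / 2) (equivRealProdCLM z) h) D z ∧
      D 1 = LC (SW 2) (1 / 2) (equivRealProdCLM z) h ∧
      D I = LC (TW' 2) (-I / 2) (equivRealProdCLM z) h := by
  obtain ⟨D, h1, h2, h3⟩ := d_EC (GC h) (equivRealProdCLM z)
  have h4 := (h1.comp z equivRealProdCLM.hasFDerivAt).add
    ((conjCLE.hasFDerivAt (x := z)).mul_const (mu h / 2))
  refine ⟨_, h4.congr_of_eventuallyEq (Eventually.of_forall fun z => ?_), ?_, ?_⟩
  · have : EC 2 (equivRealProdCLM z) (AC ic h) = EC 3 (equivRealProdCLM z) (GC h) :=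
      Complex.ext (ev_incl (Nat.le_succ 2) _ _) (ev_incl (Nat.le_succ 2) _ _)
    simp only [LC_apply, this, Pi.add_apply, Function.comp_apply, conjCLE_apply]
    ring
  · rw [LC_apply, AC, ContinuousLinearMap.comp_apply, ← h2]
    simp
    ring
  · rw [LC_apply, AC, ContinuousLinearMap.comp_apply, ← h3]
    simp
    ring

/-! ### the coordinate -/

/-- the periodic function which is `z` near zero -/
def ZC (p : P2) : ℂ := ⟨qf p.1, qf p.2⟩

theorem abs_qf (t : ℝ) : |qf t| ≤ 1 / 4 := by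
  have h1 := Real.smoothTransition.nonneg (4 * Real.cos (2 * Real.pi * t) - 1)
  have h2 := Real.smoothTransition.le_one (4 * Real.cos (2 * Real.pi * t) - 1)
  have h3 : |Real.arcsin (Real.sin (2 * Real.pi * t))| ≤ Real.pi / 2 :=
    abs_le.2 ⟨Real.neg_pi_div_two_le_arcsin _, Real.arcsin_le_pi_div_two _⟩
  have h4 := Real.pi_pos
  rw [qf, abs_div, abs_mul, abs_of_nonneg h1, abs_of_pos (by positivity : 0 < 2 * Real.pi),
    div_le_iff₀ (by positivity)]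
  nlinarith [abs_nonneg (Real.arcsin (Real.sin (2 * Real.pi * t)))]

theorem norm_ZC (p : P2) : ‖ZC p‖ ≤ 1 / 2 := by
  have := norm_le_abs_re_add_abs_im (ZC p)
  have h1 : |(ZC p).re| ≤ 1 / 4 := abs_qf p.1
  have h2 : |(ZC p).im| ≤ 1 / 4 := abs_qf p.2
  linarith

theorem ZC_eq {z : ℂ} (hz : ‖z‖ < 1 / 6) : ZC (equivRealProdCLM z) = z :=
  Complex.ext (qf_eq ((abs_re_le_norm z).trans hz.le)) (qf_eq ((abs_im_le_norm z).trans hz.le))

theorem sm_ZC {E : Type} [NormedAddCommGroup E] [NormedSpace ℝ E] {τ : E → P2}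
    (hτ : ContDiff ℝ ∞ τ) : Sm fun x p => ZC (p + τ x) := by
  have := sm_EC (((contDiff_Xt 0 int_fst).comp hτ).prodMk ((contDiff_Xt 0 int_snd).comp hτ))
  refine fun l => (this l).imp fun a ha => ⟨ha.1, fun x p => (ha.2 x p).trans (congrArg l ?_)⟩
  exact Complex.ext (ev_Xt 0 int_fst _ _) (ev_Xt 0 int_snd _ _)

/-- the function and its two derivatives -/
def UC (ζ : ℂ) (p : P2) : ℂ × HC 2 →L[ℝ] ℂ × ℂ × ℂ :=
  (ContinuousLinearMap.fst ℝ _ _ + (LC ic (conj ζ / 2) p).comp (ContinuousLinearMap.snd ℝ _ _)).prod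
    (((LC (SW 2) (1 / 2) p).prod (LC (TW' 2) (-I / 2) p)).comp (ContinuousLinearMap.snd ℝ _ _))

theorem UC_apply (ζ : ℂ) (p : P2) (c : ℂ) (h : HC 2) : UC ζ p (c, h) =
    (c + LC ic (conj ζ / 2) p h, LC (SW 2) (1 / 2) p h, LC (TW' 2) (-I / 2) p h) := rfl

theorem UC_J (ζ : ℂ) (p : P2) (c : ℂ) (h : HC 2) : UC ζ p (I * c, JC 2 h) = I • UC ζ p (c, h) := by
  simp only [UC_apply, LC_J, Prod.smul_mk, smul_eq_mul, mul_add]

theorem UC_T (ζ : ℂ) (τ p : P2) (c : ℂ) (h : HC 2) : UC ζ p (c, TC τ h) = UC ζ (p + τ) (c, h) := by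
  rw [UC_apply, UC_apply, LC_T incl_trW0, LC_T SW_trW, LC_T TW'_trW]

theorem small {X : Type} {l : Filter X} {c : X → ℂ} {h : X → HC 2} (hc : Tendsto c l (𝓝 0))
    (hh : Tendsto h l (𝓝 0)) : ∀ᶠ x in l, ∀ q p, ‖UC (ZC q) p (c x, h x)‖ < 1 := by
  have k : ∀ b, ∀ᶠ x in l, ‖c x‖ + (2 * ‖AC b (h x)‖ + ‖mu (h x)‖) < 1 := fun b => by
    have h1 := hc.norm.add (((((AC b).continuous.tendsto 0).comp hh).norm.const_mul 2).add
      ((mu.continuous.tendsto 0).comp hh).norm)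
    exact h1.eventually_lt_const (by simp)
  filter_upwards [k ic, k (SW 2), k (TW' 2)] with x h1 h2 h3 q p
  have h4 := norm_LC ic (w := conj (ZC q) / 2) (by
    rw [norm_div, norm_conj, Complex.norm_ofNat]
    linarith [norm_ZC q]) p (h x)
  have h5 := norm_LC (SW 2) (w := 1 / 2) (by norm_num) p (h x)
  have h6 := norm_LC (TW' 2) (w := -I / 2) (by norm_num) p (h x)
  have h7 := norm_nonneg (c x)
  rw [UC_apply, Prod.norm_mk, Prod.norm_mk]
  exact max_lt ((norm_add_le _ _).trans_lt (by linarith)) (max_lt (by linarith) (by linarith))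

end Vale.Agent.P290Z.Kur.G0
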